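import Mathlib.NumberTheory.Chebyshev

namespace Vale.Agent.P012

open Finset

lemma primes_two_pow (e : ℕ) (he : 0 < e) :
    2 ^ e ≤ (Nat.primesLE (2 ^ e)).card * e + (e + 1) := by
  set N := 2 ^ e with hN
  have h := Chebyshev.pi_ge N
  rw [← Nat.primesLE_card_eq_primeCounting] at h
  have hl2 : (0 : ℝ) < Real.log 2 := Real.log_pos one_lt_two
  have hlogN : Real.log (N : ℝ) = e * Real.log 2 := by
    rw [hN, Nat.cast_pow, Real.log_pow]; norm_num
  have hlogN1 : Real.log ((N : ℝ) + 1) ≤ (e + 1) * Real.log 2 := by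
    have h1 : (1 : ℝ) ≤ (N : ℝ) := by exact_mod_cast Nat.one_le_two_pow
    calc Real.log ((N : ℝ) + 1) ≤ Real.log (2 * (N : ℝ)) := Real.log_le_log (by linarith) (by linarith)
      _ = (e + 1) * Real.log 2 := by
        rw [Real.log_mul (by norm_num) (by linarith), hlogN]; ring
  have he' : (0 : ℝ) < (e : ℝ) * Real.log 2 := by positivity
  rw [hlogN, div_le_iff₀ he'] at h
  have : (N : ℝ) * Real.log 2 ≤ (((Nat.primesLE N).card * e + (e + 1) : ℕ) : ℝ) * Real.log 2 := by
    push_cast; nlinarith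
  exact_mod_cast le_of_mul_le_mul_right this hl2

end Vale.Agent.P012
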