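import Vale.Agent.P012.Select
import Vale.Agent.P012.PrimeLB

namespace Vale.Agent.P012

open Finset

/-- Every natural number below `M` is a sum of at most `h` distinct divisors of `M`. -/
def Rep (M h : ℕ) : Prop :=
  ∀ m < M, ∃ F : Finset ℕ, (∀ d ∈ F, d ∣ M) ∧ F.card ≤ h ∧ ∑ d ∈ F, d = m

lemma rep_two_pow : ∀ a, Rep (2 ^ a) a := by
  intro a
  induction a with
  | zero => intro m hm; exact ⟨∅, by simp, by simp, by simp at hm; simp [hm]⟩
  | succ a ih =>
    intro m hm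
    have h2 : 2 ^ a ∣ 2 ^ (a + 1) := pow_dvd_pow 2 (Nat.le_succ a)
    by_cases h : m < 2 ^ a
    · obtain ⟨F, hd, hc, hs⟩ := ih m h
      exact ⟨F, fun d hd' => (hd d hd').trans h2, by omega, hs⟩
    · have hm' : m - 2 ^ a < 2 ^ a := by rw [pow_succ] at hm; omega
      obtain ⟨F, hd, hc, hs⟩ := ih _ hm'
      have hn : 2 ^ a ∉ F := by
        intro hmem
        have := Finset.single_le_sum (f := fun d => d) (fun d _ => Nat.zero_le d) hmem
        omega
      refine ⟨insert (2 ^ a) F, ?_, by rw [Finset.card_insert_of_notMem hn]; omega, ?_⟩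
      · intro d hd'
        rcases Finset.mem_insert.1 hd' with rfl | h'
        · exact h2
        · exact (hd d h').trans h2
      · rw [Finset.sum_insert hn, hs]; omega

lemma rep_mul_small (a P : ℕ) (hP : 0 < P) (hPa : P ≤ 2 ^ a) : Rep (2 ^ a * P) (2 * a) := by
  classical
  intro m hm
  have hv : m % P < P := Nat.mod_lt _ hP
  have hu : m / P < 2 ^ a := (Nat.div_lt_iff_lt_mul hP).2 hm
  obtain ⟨Fv, hvd, hvc, hvs⟩ := rep_two_pow a (m % P) (by omega)
  obtain ⟨Fu, hud, huc, hus⟩ := rep_two_pow a (m / P) hu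
  have hdisj : Disjoint (Fu.image (fun d => P * d)) Fv := by
    rw [Finset.disjoint_left]
    intro x hx hx'
    obtain ⟨d, hd, rfl⟩ := Finset.mem_image.1 hx
    have h1 := Finset.single_le_sum (f := fun d => d) (fun d _ => Nat.zero_le d) hx'
    have h2 : 0 < d := Nat.pos_of_dvd_of_pos (hud d hd) (by positivity)
    have h3 : P * 1 ≤ P * d := Nat.mul_le_mul_left _ h2
    omega
  refine ⟨Fu.image (fun d => P * d) ∪ Fv, ?_, ?_, ?_⟩
  · intro x hx
    rcases Finset.mem_union.1 hx with h | h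
    · obtain ⟨d, hd, rfl⟩ := Finset.mem_image.1 h
      rw [mul_comm (2 ^ a)]
      exact Nat.mul_dvd_mul_left P (hud d hd)
    · exact (hvd x h).trans (dvd_mul_right _ _)
  · have := Finset.card_union_le (Fu.image (fun d => P * d)) Fv
    have := Finset.card_image_le (s := Fu) (f := fun d => P * d)
    omega
  · rw [Finset.sum_union hdisj, Finset.sum_image
      (fun x _ y _ h => Nat.eq_of_mul_eq_mul_left hP h), ← Finset.mul_sum, hus, hvs]
    exact Nat.div_add_mod m P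

/-- The size parameter: all primes in a pool of `n` primes are at most `2 ^ (4 * fexp n)`. -/
def fexp (n : ℕ) : ℕ := 4 * Nat.log 2 n + 30

lemma eight_fexp_le {n : ℕ} (hn : 1024 ≤ n) : 8 * fexp n ≤ n := by
  have hL : 10 ≤ Nat.log 2 n := Nat.le_log_of_pow_le (by norm_num) (by norm_num; omega)
  have h2 := Nat.pow_log_le_self 2 (show n ≠ 0 by omega)
  have key : ∀ L, 10 ≤ L → 32 * L + 240 ≤ 2 ^ L := by
    intro L hL
    induction L, hL using Nat.le_induction with
    | base => norm_num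
    | succ L hL ih => rw [pow_succ]; omega
  have := key _ hL
  simp only [fexp]
  omega

lemma pow_fexp_ge (n : ℕ) : 300 * (n * fexp n) ^ 2 ≤ 2 ^ fexp n := by
  set L := Nat.log 2 n with hL
  have h1 : n ≤ 2 ^ (L + 1) := (Nat.lt_pow_succ_log_self (by norm_num) n).le
  have h2 : fexp n ≤ 34 * 2 ^ L := by
    have := (Nat.lt_two_pow_self (n := L))
    have := Nat.one_le_two_pow (n := L)
    simp only [fexp, ← hL]
    omega
  calc 300 * (n * fexp n) ^ 2 ≤ 300 * (2 ^ (L + 1) * (34 * 2 ^ L)) ^ 2 := by gcongr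
    _ = 1387200 * 2 ^ (4 * L) := by rw [pow_succ, show 4 * L = L * 4 by ring, pow_mul]; ring
    _ ≤ 2 ^ 30 * 2 ^ (4 * L) := by gcongr; norm_num
    _ = 2 ^ fexp n := by rw [← pow_add]; congr 1; simp only [fexp, ← hL]; omega

/-- Invariant of the chain. -/
def Good (a : ℕ) (R S : Finset ℕ) (h : ℕ) : Prop :=
  R ⊆ S ∧ (∀ p ∈ S, p.Prime ∧ p ≠ 2 ∧ p ≤ 2 ^ (4 * fexp S.card)) ∧ Rep (2 ^ a * ∏ p ∈ S, p) h

lemma prime_dvd_prod_mem {X : Finset ℕ} (hX : ∀ p ∈ X, p.Prime) {q : ℕ} (hq : q.Prime)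
    (h : q ∣ ∏ p ∈ X, p) : q ∈ X := by
  obtain ⟨p, hp, hd⟩ := (hq.prime.dvd_finsetProd_iff _).1 h
  rwa [(Nat.prime_dvd_prime_iff_eq hq (hX p hp)).1 hd]

/-- Products of subsets of a set of primes. -/
def subProds (X : Finset ℕ) : Finset ℕ := X.powerset.image (fun U => ∏ p ∈ U, p)

lemma card_subProds {X : Finset ℕ} (hX : ∀ p ∈ X, p.Prime) :
    (subProds X).card = 2 ^ X.card := by
  rw [subProds, Finset.card_image_of_injOn, Finset.card_powerset]
  intro U hU V hV he
  have h1 : ∀ p ∈ U, p.Prime := fun p hp => hX p (Finset.mem_powerset.1 hU hp)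
  have h2 : ∀ p ∈ V, p.Prime := fun p hp => hX p (Finset.mem_powerset.1 hV hp)
  rw [← prod_primes_eq_primeFactors h1, ← prod_primes_eq_primeFactors h2]
  exact congrArg Nat.primeFactors he

lemma prime_supply (n f s W π : ℕ) (hn : 1 ≤ n) (hf : 1 ≤ f) (hs : s ≤ n) (hW : W ≤ 3 * (n * f))
    (h300 : 300 * (n * f) ^ 2 ≤ 2 ^ f) (hpi : 2 ^ (4 * f) ≤ π * (4 * f) + (4 * f + 1)) :
    16 * s * (2 ^ (3 * f) * W) + s + n ≤ π := by
  by_contra hlt
  push Not at hlt
  have hnf : 1 ≤ n * f := Nat.one_le_iff_ne_zero.2 (Nat.mul_ne_zero (by omega) (by omega))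
  have hKle : 16 * s * (2 ^ (3 * f) * W) * (4 * f) ≤ 192 * (n * f) ^ 2 * 2 ^ (3 * f) := by
    calc 16 * s * (2 ^ (3 * f) * W) * (4 * f) = 64 * (s * f) * W * 2 ^ (3 * f) := by ring
      _ ≤ 64 * (n * f) * (3 * (n * f)) * 2 ^ (3 * f) := by gcongr
      _ = _ := by ring
  have hother : (s + n) * (4 * f) + 1 ≤ 9 * (n * f) ^ 2 * 2 ^ (3 * f) := by
    calc (s + n) * (4 * f) + 1 ≤ (n + n) * (4 * f) + 1 := by gcongr
      _ ≤ 9 * (n * f) * 1 * 1 := by nlinarith
      _ ≤ 9 * (n * f) * (n * f) * 2 ^ (3 * f) := by gcongr; exact Nat.one_le_two_pow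
      _ = _ := by ring
  have hbig : 300 * (n * f) ^ 2 * 2 ^ (3 * f) ≤ 2 ^ (4 * f) := by
    rw [show 4 * f = f + 3 * f by ring, pow_add]
    exact Nat.mul_le_mul_right _ h300
  have hpos : 0 < (n * f) ^ 2 * 2 ^ (3 * f) := by positivity
  have h5 : (π + 1) * (4 * f) ≤ (16 * s * (2 ^ (3 * f) * W) + s + n) * (4 * f) :=
    Nat.mul_le_mul_right _ hlt
  nlinarith

theorem step {a : ℕ} {R S : Finset ℕ} {h : ℕ} (hG : Good a R S h) (hR : R.card = 16)
    (hn : 1024 ≤ S.card) :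
    ∃ S', Good a R S' (h + 16) ∧ S'.card = S.card + S.card / (8 * fexp S.card) := by
  classical
  obtain ⟨hRS, hS, hrep⟩ := hG
  have h300' := pow_fexp_ge S.card
  have hf8 := eight_fexp_le hn
  set n := S.card with hn'
  set f := fexp n with hf
  set s := n / (8 * f) with hs'
  have hfpos : 1 ≤ f := by simp only [hf, fexp]; omega
  have hs1 : 1 ≤ s := (Nat.one_le_div_iff (by omega)).2 hf8
  have hs8 : s * (8 * f) ≤ n := Nat.div_mul_le_self _ _
  set m := (n - 16) / 2 with hm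
  have hSR : (S \ R).card = n - 16 := by rw [Finset.card_sdiff_of_subset hRS, hR]
  obtain ⟨X, hX, hXc⟩ := Finset.exists_subset_card_eq (s := S \ R) (n := m) (by omega)
  obtain ⟨Y, hY, hYc⟩ := Finset.exists_subset_card_eq (s := (S \ R) \ X) (n := m)
    (by rw [Finset.card_sdiff_of_subset hX, hSR, hXc]; omega)
  have hXS : X ⊆ S := hX.trans Finset.sdiff_subset
  have hYS : Y ⊆ S := hY.trans (Finset.sdiff_subset.trans Finset.sdiff_subset)
  set W := m * (4 * f) + 1 with hW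
  have hbound : ∀ Z : Finset ℕ, Z ⊆ S → Z.card = m → ∀ x ∈ subProds Z, x < 2 ^ W := by
    intro Z hZ hZc x hx
    obtain ⟨V, hV, rfl⟩ := Finset.mem_image.1 hx
    rw [Finset.mem_powerset] at hV
    calc ∏ p ∈ V, p ≤ (2 ^ (4 * f)) ^ V.card :=
          Finset.prod_le_pow_card _ _ _ fun p hp => (hS p (hZ (hV hp))).2.2
      _ ≤ (2 ^ (4 * f)) ^ m := Nat.pow_le_pow_right (by positivity) (hZc ▸ Finset.card_le_card hV)
      _ < 2 ^ W := by rw [← pow_mul]; exact Nat.pow_lt_pow_right (by norm_num) (by rw [hW, mul_comm]; omega)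
  set U := Nat.primesLE (2 ^ (4 * f)) \ insert 2 S with hU
  set K := 16 * s * (2 ^ (3 * f) * W) with hK
  have hWpos : 0 < W := by omega
  have hKU : K + s ≤ U.card + 1 := by
    have hpi := primes_two_pow (4 * f) (by omega)
    set π := (Nat.primesLE (2 ^ (4 * f))).card with hπ
    have hUc : π ≤ U.card + (n + 1) := by
      have h1 := Finset.le_card_sdiff (insert 2 S) (Nat.primesLE (2 ^ (4 * f)))
      have h2 := Finset.card_insert_le 2 S
      rw [← hU, ← hπ] at h1
      omega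
    have h1 : 2 * m ≤ n := by omega
    have h2 : 1 ≤ n * f := Nat.one_le_iff_ne_zero.2 (Nat.mul_ne_zero (by omega) (by omega))
    have h3 : 2 * m * (2 * f) ≤ n * (2 * f) := Nat.mul_le_mul_right _ h1
    have hWle : W ≤ 3 * (n * f) := by rw [hW]; nlinarith
    have h4 : K + s + n ≤ π :=
      prime_supply n f s W π (by omega) hfpos (Nat.div_le_self _ _) hWle h300' hpi
    omega
  have hUprop : ∀ p ∈ U, p.Prime ∧ p ≤ 2 ^ (4 * f) := by
    intro p hp
    have := Nat.mem_primesLE.1 (Finset.mem_sdiff.1 hp).1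
    exact ⟨this.2, this.1⟩
  obtain ⟨T, hTU, hTc, hAcond, hBcond⟩ := exists_primes (subProds X) (subProds Y) U f W s (2 ^ m)
    hUprop (hbound X hXS hXc) (hbound Y hYS hYc)
    (by rw [card_subProds fun p hp => (hS p (hXS hp)).1, hXc])
    (by rw [card_subProds fun p hp => (hS p (hYS hp)).1, hYc])
    (by
      rw [← pow_succ']
      refine Nat.pow_le_pow_right (by norm_num) ?_
      rw [show s * (8 * f) = 8 * (f * s) by ring] at hs8
      rw [show 3 * f * s = 3 * (f * s) by ring]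
      omega)
    (show 0 < K from Nat.mul_pos (by omega) (Nat.mul_pos (Nat.two_pow_pos _) hWpos)) (le_refl K) hKU
  have hTp : ∀ p ∈ T, p.Prime ∧ p ≠ 2 ∧ p ∉ S := by
    intro p hp
    refine ⟨(hUprop p (hTU hp)).1, ?_⟩
    have := (Finset.mem_sdiff.1 (hTU hp)).2
    simp only [Finset.mem_insert, not_or] at this
    exact this
  have hdisjST : Disjoint S T := Finset.disjoint_right.2 fun p hp => (hTp p hp).2.2
  set M := 2 ^ a * ∏ p ∈ S, p with hM
  set D := ∏ p ∈ T, p with hD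
  have hMpos : 0 < M := by
    rw [hM]; exact Nat.mul_pos (by positivity) (Finset.prod_pos fun p hp => (hS p hp).1.pos)
  have hcop : M.Coprime D := by
    refine Nat.Coprime.prod_right fun p hp => ?_
    refine ((hTp p hp).1.coprime_iff_not_dvd.2 fun hd => ?_).symm
    rcases (hTp p hp).1.dvd_mul.1 hd with h1 | h1
    · exact (hTp p hp).2.1 ((Nat.prime_dvd_prime_iff_eq (hTp p hp).1 Nat.prime_two).1
        ((hTp p hp).1.dvd_of_dvd_pow h1))
    · exact (hTp p hp).2.2 (prime_dvd_prod_mem (fun q hq => (hS q hq).1) (hTp p hp).1 h1)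
  have hD2 : 2 ≤ D := by
    obtain ⟨p, hp⟩ := Finset.card_pos.1 (show 0 < T.card by omega)
    exact (hTp p hp).1.two_le.trans
      (Nat.le_of_dvd (Finset.prod_pos fun q hq => (hTp q hq).1.pos) (Finset.dvd_prod_of_mem _ hp))
  have hprodST : 2 ^ a * ∏ p ∈ S ∪ T, p = M * D := by
    rw [Finset.prod_union hdisjST, hM, hD]; ring
  refine ⟨S ∪ T, ⟨hRS.trans Finset.subset_union_left, ?_, ?_⟩, by
    rw [Finset.card_union_of_disjoint hdisjST, hTc]⟩
  · intro p hp
    have hmono : 2 ^ (4 * f) ≤ 2 ^ (4 * fexp (S ∪ T).card) := by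
      refine Nat.pow_le_pow_right (by norm_num) ?_
      have := Nat.log_mono_right (b := 2) (Finset.card_le_card (Finset.subset_union_left (s₁ := S) (s₂ := T)))
      simp only [hf, fexp, ← hn'] at *
      omega
    rcases Finset.mem_union.1 hp with h1 | h1
    · exact ⟨(hS p h1).1, (hS p h1).2.1, (hS p h1).2.2.trans hmono⟩
    · exact ⟨(hTp p h1).1, (hTp p h1).2.1, (hUprop p (hTU h1)).2.trans hmono⟩
  rw [hprodST]
  intro x hx
  rcases lt_or_ge x M with hxM | hxM
  · obtain ⟨F, h1, h2, h3⟩ := hrep x hxM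
    exact ⟨F, fun d hd => (h1 d hd).trans (dvd_mul_right _ _), by omega, h3⟩
  set c : Fin 16 → ℕ := fun i => ((R.equivFinOfCardEq hR).symm i).1 with hc
  have hcR : ∀ i, c i ∈ R := fun i => ((R.equivFinOfCardEq hR).symm i).2
  have hcinj : Function.Injective c := Subtype.val_injective.comp (Equiv.injective _)
  obtain ⟨t, ht, htsum⟩ := residues_covered T (fun p hp => (hTp p hp).1) (subProds X) (subProds Y)
    ⟨1, Finset.mem_image.2 ⟨∅, Finset.empty_mem_powerset _, by simp⟩⟩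
    ⟨1, Finset.mem_image.2 ⟨∅, Finset.empty_mem_powerset _, by simp⟩⟩ le_rfl c
    (fun i p hp hd => (hTp p hp).2.2 (by
      have hcS := hRS (hcR i)
      rwa [(Nat.prime_dvd_prime_iff_eq (hTp p hp).1 (hS _ hcS).1).1 hd]))
    hAcond hBcond x
  set d : Fin 16 → ℕ := fun i => c i * (t i).1 * (t i).2 with hd
  have hdprops : ∀ i, (d i ∣ M ∧ 16 * d i ≤ M) ∧ (∀ q ∈ R, q ∣ d i → q = c i) := by
    intro i
    obtain ⟨X', hX', hx'⟩ := Finset.mem_image.1 (ht i).1
    obtain ⟨Y', hY', hy'⟩ := Finset.mem_image.1 (ht i).2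
    rw [Finset.mem_powerset] at hX' hY'
    have hXR : ∀ p ∈ X', p ∈ S ∧ p ∉ R := fun p hp => Finset.mem_sdiff.1 (hX (hX' hp))
    have hYR : ∀ p ∈ Y', p ∈ S ∧ p ∉ R ∧ p ∉ X' := fun p hp => by
      have h1 := Finset.mem_sdiff.1 (hY (hY' hp))
      have h2 := Finset.mem_sdiff.1 h1.1
      exact ⟨h2.1, h2.2, fun h' => h1.2 (hX' h')⟩
    have hd1 : Disjoint R X' := Finset.disjoint_right.2 fun p hp => (hXR p hp).2
    have hd2 : Disjoint (R ∪ X') Y' := Finset.disjoint_right.2 fun p hp h' => by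
      rcases Finset.mem_union.1 h' with h'' | h''
      exacts [(hYR p hp).2.1 h'', (hYR p hp).2.2 h'']
    have heq : d i * ∏ p ∈ R.erase (c i), p = ∏ p ∈ R ∪ X' ∪ Y', p := by
      rw [Finset.prod_union hd2, Finset.prod_union hd1, ← Finset.mul_prod_erase R _ (hcR i), hd]
      simp only [← hx', ← hy']; ring
    have hdvd : d i * ∏ p ∈ R.erase (c i), p ∣ M := by
      rw [heq, hM]
      refine Dvd.dvd.mul_left (Finset.prod_dvd_prod_of_subset _ _ _ ?_) _
      exact Finset.union_subset (Finset.union_subset hRS fun p hp => (hXR p hp).1) fun p hp => (hYR p hp).1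
    refine ⟨⟨dvd_of_mul_right_dvd hdvd, ?_⟩, ?_⟩
    · have h16 : 16 ≤ ∏ p ∈ R.erase (c i), p := by
        refine le_trans ?_ (Finset.pow_card_le_prod _ _ 2 fun p hp =>
          (hS p (hRS (Finset.mem_of_mem_erase hp))).1.two_le)
        rw [Finset.card_erase_of_mem (hcR i), hR]; norm_num
      calc 16 * d i ≤ (∏ p ∈ R.erase (c i), p) * d i := Nat.mul_le_mul_right _ h16
        _ ≤ M := Nat.le_of_dvd hMpos (by rwa [mul_comm])
    · intro q hq hqd
      have hqp := (hS q (hRS hq)).1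
      rw [hd] at hqd
      simp only [← hx', ← hy'] at hqd
      rcases hqp.dvd_mul.1 hqd with h1 | h1
      · rcases hqp.dvd_mul.1 h1 with h2 | h2
        · exact (Nat.prime_dvd_prime_iff_eq hqp (hS _ (hRS (hcR i))).1).1 h2
        · exact absurd hq (hXR q (prime_dvd_prod_mem (fun p hp => (hS p (hXR p hp).1).1) hqp h2)).2
      · exact absurd hq (hYR q (prime_dvd_prod_mem (fun p hp => (hS p (hYR p hp).1).1) hqp h1)).2.1
  have hdinj : Function.Injective d := by
    intro i j hij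
    apply hcinj
    refine (hdprops j).2 _ (hcR i) ?_
    rw [← hij]
    exact (dvd_mul_right _ _).trans (dvd_mul_right _ _)
  set v := ∑ i, d i with hv
  have hvM : v ≤ M := by
    have h1 : ∑ i, 16 * d i ≤ ∑ _i : Fin 16, M := Finset.sum_le_sum fun i _ => (hdprops i).1.2
    simp only [Finset.sum_const, Finset.card_univ, Fintype.card_fin, smul_eq_mul, ← Finset.mul_sum] at h1
    omega
  have hdvdxv : D ∣ x - v := (Nat.modEq_iff_dvd' (hvM.trans hxM)).1 htsum
  obtain ⟨u, hu⟩ := hdvdxv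
  have huM : u < M := by
    have h1 : D * u < D * M := by rw [← hu, mul_comm D M]; omega
    exact Nat.lt_of_mul_lt_mul_left h1
  obtain ⟨F, hFd, hFc, hFs⟩ := hrep u huM
  have hdisj : Disjoint (Finset.univ.image d) (F.image (fun e => D * e)) := by
    rw [Finset.disjoint_left]
    intro y hy hy'
    obtain ⟨i, -, rfl⟩ := Finset.mem_image.1 hy
    obtain ⟨e, -, he⟩ := Finset.mem_image.1 hy'
    have h1 : D ∣ M := (Dvd.intro e he).trans (hdprops i).1.1
    have h2 : D ∣ 1 := hcop.symm.dvd_of_dvd_mul_right (by rwa [one_mul])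
    have := Nat.le_of_dvd one_pos h2
    omega
  refine ⟨Finset.univ.image d ∪ F.image (fun e => D * e), ?_, ?_, ?_⟩
  · intro y hy
    rcases Finset.mem_union.1 hy with h1 | h1
    · obtain ⟨i, -, rfl⟩ := Finset.mem_image.1 h1
      exact (hdprops i).1.1.trans (dvd_mul_right _ _)
    · obtain ⟨e, he, rfl⟩ := Finset.mem_image.1 h1
      rw [mul_comm M]
      exact Nat.mul_dvd_mul_left D (hFd e he)
  · refine (Finset.card_union_le _ _).trans ?_
    have h1 := Finset.card_image_le (s := (Finset.univ : Finset (Fin 16))) (f := d)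
    have h2 := Finset.card_image_le (s := F) (f := fun e => D * e)
    simp only [Finset.card_univ, Fintype.card_fin] at h1
    omega
  · rw [Finset.sum_union hdisj, Finset.sum_image (fun i _ j _ h => hdinj h),
      Finset.sum_image (fun i _ j _ h => Nat.eq_of_mul_eq_mul_left (show 0 < D by omega) h),
      ← Finset.mul_sum, hFs, ← hv]
    omega

theorem double {a : ℕ} {R S : Finset ℕ} {h L : ℕ} (hG : Good a R S h) (hR : R.card = 16)
    (hL : 10 ≤ L) (hS : 2 ^ L ≤ S.card) :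
    ∃ S', 2 ^ (L + 1) ≤ S'.card ∧ Good a R S' (h + 256 * (4 * L + 30)) := by
  have grow : ∀ j, ∃ S', Good a R S' (h + 16 * j) ∧ 2 ^ L ≤ S'.card ∧
      (2 ^ (L + 1) ≤ S'.card ∨ 2 ^ L * (16 * (4 * L + 30) + j) ≤ S'.card * (16 * (4 * L + 30))) := by
    intro j
    induction j with
    | zero => exact ⟨S, by simpa using hG, hS, Or.inr (Nat.mul_le_mul_right _ hS)⟩
    | succ j ih =>
      obtain ⟨S₁, hG₁, hc₁, hor⟩ := ih
      by_cases hbig : 2 ^ (L + 1) ≤ S₁.card
      · refine ⟨S₁, ⟨hG₁.1, hG₁.2.1, fun m hm => ?_⟩, hc₁, Or.inl hbig⟩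
        obtain ⟨F, h1, h2, h3⟩ := hG₁.2.2 m hm
        exact ⟨F, h1, by omega, h3⟩
      have hn : 1024 ≤ S₁.card := le_trans (by norm_num) ((Nat.pow_le_pow_right two_pos hL).trans hc₁)
      obtain ⟨S₂, hG₂, hc₂⟩ := step hG₁ hR hn
      have hlog : fexp S₁.card = 4 * L + 30 := by
        rw [fexp, Nat.log_eq_of_pow_le_of_lt_pow hc₁ (not_le.1 hbig)]
      rw [hlog] at hc₂
      refine ⟨S₂, by rwa [show h + 16 * (j + 1) = h + 16 * j + 16 by ring],
        hc₁.trans (hc₂ ▸ Nat.le_add_right _ _), Or.inr ?_⟩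
      have h8 : 8 * (4 * L + 30) ≤ S₁.card := hlog ▸ eight_fexp_le hn
      have hs : S₁.card < (S₁.card / (8 * (4 * L + 30)) + 1) * (8 * (4 * L + 30)) := by
        rw [mul_comm]; exact Nat.lt_mul_div_succ _ (by omega)
      have hs1 : 1 ≤ S₁.card / (8 * (4 * L + 30)) := (Nat.one_le_div_iff (by omega)).2 h8
      have h2 : (S₁.card / (8 * (4 * L + 30)) + 1) * (8 * (4 * L + 30))
          ≤ (2 * (S₁.card / (8 * (4 * L + 30)))) * (8 * (4 * L + 30)) :=
        Nat.mul_le_mul_right _ (by omega)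
      rcases hor with hor | hor
      · exact absurd hor hbig
      rw [hc₂]
      nlinarith
  obtain ⟨S', hG', -, hor⟩ := grow (16 * (4 * L + 30))
  refine ⟨S', ?_, ?_⟩
  · rcases hor with hor | hor
    · exact hor
    · rw [pow_succ]
      refine Nat.le_of_mul_le_mul_right (c := 16 * (4 * L + 30)) ?_ (by omega)
      calc 2 ^ L * 2 * (16 * (4 * L + 30)) = 2 ^ L * (16 * (4 * L + 30) + 16 * (4 * L + 30)) := by ring
        _ ≤ _ := hor
  · rwa [show 16 * (16 * (4 * L + 30)) = 256 * (4 * L + 30) by ring] at hG'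

/-- Numbers with few-divisor representations: `h(M) ≪ (log log M)²`. -/
theorem exists_rep : ∃ C, ∀ L, 10 ≤ L → ∃ M h, 2 ^ 2 ^ L ≤ M ∧ Rep M h ∧ h ≤ C * L ^ 2 := by
  classical
  have hf : fexp 1024 = 70 := by
    rw [fexp, Nat.log_eq_of_pow_le_of_lt_pow (m := 10) (by norm_num) (by norm_num)]
  have hbig : 1026 ≤ (Nat.primesLE (2 ^ 280)).card := by
    have h1 := primes_two_pow 280 (by norm_num)
    have h2 : 1026 * 280 + 281 ≤ 2 ^ 280 := le_trans (by norm_num) (Nat.pow_le_pow_right two_pos (show 20 ≤ 280 by norm_num))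
    omega
  obtain ⟨S, hS, hSc⟩ := Finset.exists_subset_card_eq (s := (Nat.primesLE (2 ^ 280)).erase 2) (n := 1024)
    (le_trans (by omega) Finset.pred_card_le_card_erase)
  obtain ⟨R, hR, hRc⟩ := Finset.exists_subset_card_eq (s := S) (n := 16) (by omega)
  have hSp : ∀ p ∈ S, p.Prime ∧ p ≠ 2 ∧ p ≤ 2 ^ (4 * fexp S.card) := by
    intro p hp
    have h1 := Finset.mem_erase.1 (hS hp)
    have h2 := Nat.mem_primesLE.1 h1.2
    refine ⟨h2.2, h1.1, ?_⟩
    rw [hSc, hf]
    exact h2.1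
  set a := ∏ p ∈ S, p with ha
  have hG : Good a R S (2 * a) := ⟨hR, hSp, rep_mul_small a _
    (Finset.prod_pos fun p hp => (hSp p hp).1.pos) (Nat.lt_two_pow_self).le⟩
  have main : ∀ L, 10 ≤ L → ∃ S', 2 ^ L ≤ S'.card ∧ Good a R S' (2 * a + 256 * (4 * L + 30) * L) := by
    intro L hL
    induction L, hL using Nat.le_induction with
    | base =>
      refine ⟨S, by rw [hSc]; norm_num, hG.1, hG.2.1, fun m hm => ?_⟩
      obtain ⟨F, h1, h2, h3⟩ := hG.2.2 m hm
      exact ⟨F, h1, by omega, h3⟩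
    | succ L hL ih =>
      obtain ⟨S₁, hc, hG₁⟩ := ih
      obtain ⟨S₂, hc₂, hG₂⟩ := double hG₁ hRc hL hc
      refine ⟨S₂, hc₂, hG₂.1, hG₂.2.1, fun m hm => ?_⟩
      obtain ⟨F, h1, h2, h3⟩ := hG₂.2.2 m hm
      exact ⟨F, h1, h2.trans (by nlinarith), h3⟩
  refine ⟨2 * a + 256 * 34, fun L hL => ?_⟩
  obtain ⟨S', hc, hG'⟩ := main L hL
  refine ⟨2 ^ a * ∏ p ∈ S', p, 2 * a + 256 * (4 * L + 30) * L, ?_, hG'.2.2, ?_⟩
  · calc 2 ^ 2 ^ L ≤ 2 ^ S'.card := Nat.pow_le_pow_right two_pos hc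
      _ ≤ ∏ p ∈ S', p := Finset.pow_card_le_prod _ _ _ fun p hp => (hG'.2.1 p hp).1.two_le
      _ ≤ _ := Nat.le_mul_of_pos_left _ (by positivity)
  · have h1 : 1 ≤ L := by omega
    have h2 : L ≤ L ^ 2 := Nat.le_self_pow (by norm_num) L
    nlinarith

end Vale.Agent.P012
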