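import Mathlib.Analysis.Fourier.ZMod
import Mathlib.Algebra.BigOperators.Ring.Finset
import Mathlib.Algebra.Order.BigOperators.Ring.Finset
import Mathlib.Data.Nat.Squarefree

namespace Vale.Agent.P012

open Finset

/-- Number of ordered pairs of elements of `A` that are congruent modulo `D`. -/
def coll (A : Finset ℕ) (D : ℕ) : ℕ :=
  ((A ×ˢ A).filter (fun q => q.1 % D = q.2 % D)).card

lemma coll_eq_sum (A : Finset ℕ) (D : ℕ) :
    coll A D = ∑ x ∈ A, (A.filter (fun y => x % D = y % D)).card := by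
  rw [coll, Finset.card_filter, Finset.sum_product]
  refine Finset.sum_congr rfl fun x _ => ?_
  rw [Finset.card_filter]

lemma sum_count_sq {D : ℕ} [NeZero D] (A : Finset ℕ) :
    ∑ r : ZMod D, ((A.filter (fun x : ℕ => (x : ZMod D) = r)).card : ℝ) ^ 2 = coll A D := by
  classical
  have h : coll A D = ∑ r : ZMod D, (A.filter (fun x : ℕ => (x : ZMod D) = r)).card ^ 2 := by
    rw [coll, Finset.card_eq_sum_card_fiberwise
      (f := fun q : ℕ × ℕ => (q.1 : ZMod D)) (t := Finset.univ) (fun _ _ => Finset.mem_univ _)]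
    refine Finset.sum_congr rfl fun r _ => ?_
    rw [sq, ← Finset.card_product]
    congr 1
    ext ⟨x, y⟩
    simp only [mem_filter, mem_product]
    constructor
    · rintro ⟨⟨⟨hx, hy⟩, h⟩, hr⟩
      exact ⟨⟨hx, hr⟩, hy, ((ZMod.natCast_eq_natCast_iff' x y D).2 h).symm.trans hr⟩
    · rintro ⟨⟨hx, hr⟩, hy, hr'⟩
      exact ⟨⟨⟨hx, hy⟩, (ZMod.natCast_eq_natCast_iff' x y D).1 (hr.trans hr'.symm)⟩, hr⟩
  rw [h]; push_cast; rfl

lemma sum_normSq_char {D : ℕ} [NeZero D] (A : Finset ℕ) (u : ZMod D) (hu : IsUnit u) :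
    ∑ r : ZMod D, ‖∑ y ∈ A, ZMod.stdAddChar (r * (u * (y : ZMod D)))‖ ^ 2
      = (D : ℝ) * coll A D := by
  classical
  have key : ∑ r : ZMod D, (starRingEnd ℂ) (∑ y ∈ A, ZMod.stdAddChar (r * (u * (y : ZMod D))))
      * (∑ y ∈ A, ZMod.stdAddChar (r * (u * (y : ZMod D)))) = ((D : ℝ) * coll A D : ℝ) := by
    simp only [map_sum, Finset.sum_mul, Finset.mul_sum]
    rw [Finset.sum_comm]
    rw [coll_eq_sum]
    push_cast
    rw [Finset.mul_sum]
    refine Finset.sum_congr rfl fun x _ => ?_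
    rw [Finset.sum_comm]
    have h1 : ∀ y : ℕ, ∑ r : ZMod D, (starRingEnd ℂ) (ZMod.stdAddChar (r * (u * (y : ZMod D))))
        * ZMod.stdAddChar (r * (u * (x : ZMod D)))
        = if x % D = y % D then (D : ℂ) else 0 := by
      intro y
      have : ∀ r : ZMod D, (starRingEnd ℂ) (ZMod.stdAddChar (r * (u * (y : ZMod D))))
          * ZMod.stdAddChar (r * (u * (x : ZMod D)))
          = ZMod.stdAddChar (r * (u * ((x : ZMod D) - (y : ZMod D)))) := by
        intro r
        rw [← AddChar.map_neg_eq_conj, ← AddChar.map_add_eq_mul]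
        congr 1; ring
      rw [Finset.sum_congr rfl (fun r _ => this r),
        AddChar.sum_mulShift _ (ZMod.isPrimitive_stdAddChar D)]
      have e : u * ((x : ZMod D) - (y : ZMod D)) = 0 ↔ x % D = y % D := by
        rw [hu.mul_right_eq_zero, sub_eq_zero, ZMod.natCast_eq_natCast_iff']
      by_cases hxy : x % D = y % D
      · simp [e.2 hxy, hxy, ZMod.card]
      · simp [mt e.1 hxy, hxy]
    rw [Finset.sum_congr rfl (fun y _ => h1 y), Finset.sum_ite, Finset.sum_const_zero, add_zero,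
      Finset.sum_const, nsmul_eq_mul, mul_comm]
  have h2 : ∀ z : ℂ, (starRingEnd ℂ) z * z = ((‖z‖ ^ 2 : ℝ) : ℂ) := by
    intro z; rw [← Complex.normSq_eq_conj_mul_self, Complex.normSq_eq_norm_sq]
  simp only [h2] at key
  exact_mod_cast key

lemma char_sum_eq_prod {R ι : Type*} [AddCommMonoid R] (ψ : AddChar R ℂ) (s : Finset ι) (f : ι → R) :
    ψ (∑ i ∈ s, f i) = ∏ i ∈ s, ψ (f i) := by
  classical
  induction s using Finset.induction_on with
  | empty => simp
  | insert a s ha ih => rw [Finset.sum_insert ha, Finset.prod_insert ha, AddChar.map_add_eq_mul, ih]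

/-- The bilinear (double large sieve) bound. -/
lemma bilinear {D : ℕ} [NeZero D] (A B : Finset ℕ) (u : ZMod D) (hu : IsUnit u) :
    ‖∑ x ∈ A, ∑ y ∈ B, ZMod.stdAddChar ((x : ZMod D) * (u * (y : ZMod D)))‖ ^ 2
      ≤ (D : ℝ) * coll A D * coll B D := by
  classical
  set F : ZMod D → ℂ := fun r => ∑ y ∈ B, ZMod.stdAddChar (r * (u * (y : ZMod D))) with hF
  have e : ∑ x ∈ A, F x = ∑ r : ZMod D, ((A.filter (fun x : ℕ => (x : ZMod D) = r)).card : ℂ) * F r := by
    rw [← Finset.sum_fiberwise A (fun x : ℕ => (x : ZMod D)) (fun x => F x)]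
    refine Finset.sum_congr rfl fun r _ => ?_
    rw [Finset.sum_congr rfl (g := fun _ => F r) (fun x hx => by rw [(Finset.mem_filter.1 hx).2]),
      Finset.sum_const, nsmul_eq_mul]
  calc ‖∑ x ∈ A, F x‖ ^ 2
      ≤ (∑ r : ZMod D, ((A.filter (fun x : ℕ => (x : ZMod D) = r)).card : ℝ) * ‖F r‖) ^ 2 := by
        refine pow_le_pow_left₀ (norm_nonneg _) ?_ 2
        rw [e]
        refine (norm_sum_le _ _).trans_eq (Finset.sum_congr rfl fun r _ => ?_)
        simp
    _ ≤ (∑ r : ZMod D, ((A.filter (fun x : ℕ => (x : ZMod D) = r)).card : ℝ) ^ 2)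
          * ∑ r : ZMod D, ‖F r‖ ^ 2 := Finset.sum_mul_sq_le_sq_mul_sq _ _ _
    _ = (D : ℝ) * coll A D * coll B D := by
        rw [sum_count_sq, hF, sum_normSq_char B u hu]; ring

lemma stdAddChar_mul_left {g D M : ℕ} [NeZero D] [NeZero M] (hM : M = g * D) (hg : g ≠ 0)
    (j : ℕ) :
    ZMod.stdAddChar (((g * j : ℕ) : ZMod M)) = ZMod.stdAddChar ((j : ZMod D)) := by
  subst hM
  have h1 := ZMod.stdAddChar_coe (N := g * D) ((g * j : ℕ) : ℤ)
  have h2 := ZMod.stdAddChar_coe (N := D) (j : ℤ)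
  rw [Int.cast_natCast] at h1 h2
  rw [h1, h2]
  congr 1
  have hD : (D : ℂ) ≠ 0 := Nat.cast_ne_zero.2 (NeZero.ne D)
  have hg' : (g : ℂ) ≠ 0 := Nat.cast_ne_zero.2 hg
  push_cast
  field_simp

lemma sum_inv_cube_lt_one (s : Finset ℕ) (hs : ∀ n ∈ s, 2 ≤ n) :
    ∑ n ∈ s, (1 : ℝ) / (n : ℝ) ^ 3 < 1 := by
  have tele : ∀ N : ℕ, 2 ≤ N → ∑ n ∈ Finset.Ico 2 N, ((1 : ℝ) / ((n : ℝ) - 1) - 1 / n) = 1 - 1 / ((N : ℝ) - 1) := by
    intro N hN
    induction N, hN using Nat.le_induction with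
    | base => norm_num
    | succ N hN ih => rw [Finset.sum_Ico_succ_top hN, ih]; push_cast; ring
  have hsub : s ⊆ Finset.Ico 2 (s.sup id + 2) := by
    intro n hn
    have h : n ≤ s.sup id := Finset.le_sup (f := id) hn
    simp [hs n hn]; omega
  have hterm : ∀ n : ℕ, 2 ≤ n → (1 : ℝ) / (n : ℝ) ^ 3 ≤ 1 / ((n : ℝ) - 1) - 1 / n := by
    intro n hn
    have hn' : (2 : ℝ) ≤ n := by exact_mod_cast hn
    rw [div_sub_div _ _ (by linarith) (by linarith), div_le_div_iff₀ (by positivity) (by nlinarith)]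
    nlinarith [mul_le_mul_of_nonneg_left hn' (sq_nonneg (n : ℝ)), sq_nonneg ((n : ℝ) - 2)]
  calc ∑ n ∈ s, (1 : ℝ) / (n : ℝ) ^ 3
      ≤ ∑ n ∈ Finset.Ico 2 (s.sup id + 2), (1 : ℝ) / (n : ℝ) ^ 3 :=
        Finset.sum_le_sum_of_subset_of_nonneg hsub (fun _ _ _ => by positivity)
    _ ≤ ∑ n ∈ Finset.Ico 2 (s.sup id + 2), ((1 : ℝ) / ((n : ℝ) - 1) - 1 / n) :=
        Finset.sum_le_sum (fun n hn => hterm n (Finset.mem_Ico.1 hn).1)
    _ = 1 - 1 / (((s.sup id + 2 : ℕ) : ℝ) - 1) := tele _ (by omega)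
    _ < 1 := by
        have : (0 : ℝ) < 1 / (((s.sup id + 2 : ℕ) : ℝ) - 1) := by
          apply one_div_pos.2; push_cast; have : (0:ℝ) ≤ ((s.sup id : ℕ) : ℝ) := Nat.cast_nonneg _; linarith
        linarith

lemma prod_primes_eq_primeFactors {T : Finset ℕ} (hT : ∀ p ∈ T, p.Prime) :
    (∏ p ∈ T, p).primeFactors = T := Nat.primeFactors_prod hT

/-- If both sets have small collision numbers modulo every subproduct of `T`, every residue class
modulo the product of `T` is a sum of `k ≥ 16` twisted products. -/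
theorem residues_covered (T : Finset ℕ) (hT : ∀ p ∈ T, p.Prime) (A B : Finset ℕ)
    (hA0 : A.Nonempty) (hB0 : B.Nonempty) {k : ℕ} (hk : 16 ≤ k) (c : Fin k → ℕ)
    (hc : ∀ i, ∀ p ∈ T, ¬ p ∣ c i)
    (hA : ∀ T' ⊆ T, T'.Nonempty → (coll A (∏ p ∈ T', p)) ^ 4 * (∏ p ∈ T', p) ^ 3 ≤ A.card ^ 8)
    (hB : ∀ T' ⊆ T, T'.Nonempty → (coll B (∏ p ∈ T', p)) ^ 4 * (∏ p ∈ T', p) ^ 3 ≤ B.card ^ 8)
    (m : ℕ) :
    ∃ t : Fin k → ℕ × ℕ, (∀ i, (t i).1 ∈ A ∧ (t i).2 ∈ B) ∧
      (∑ i, c i * (t i).1 * (t i).2) % (∏ p ∈ T, p) = m % (∏ p ∈ T, p) := by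
  classical
  set D := ∏ p ∈ T, p with hD
  have hDne : D ≠ 0 := Finset.prod_ne_zero_iff.2 fun p hp => (hT p hp).ne_zero
  have : NeZero D := ⟨hDne⟩
  by_contra hcon
  push Not at hcon
  set S : Fin k → ZMod D → ℂ := fun i h =>
    ∑ q ∈ A ×ˢ B, ZMod.stdAddChar (h * ((c i * q.1 * q.2 : ℕ) : ZMod D)) with hS
  set Nn : ℝ := (A.card : ℝ) * B.card with hNn
  have hN0 : 0 < Nn := by
    have := hA0.card_pos
    have := hB0.card_pos
    positivity
  have hzero : ∑ h : ZMod D, ZMod.stdAddChar (-(h * (m : ZMod D))) * ∏ i, S i h = 0 := by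
    simp only [hS, Finset.prod_univ_sum, Finset.mul_sum]
    rw [Finset.sum_comm]
    refine Finset.sum_eq_zero fun t ht => ?_
    rw [Fintype.mem_piFinset] at ht
    have key : ∀ h : ZMod D, ZMod.stdAddChar (-(h * (m : ZMod D))) *
        ∏ i, ZMod.stdAddChar (h * ((c i * (t i).1 * (t i).2 : ℕ) : ZMod D))
        = ZMod.stdAddChar (h * (((∑ i, c i * (t i).1 * (t i).2 : ℕ) : ZMod D) - (m : ZMod D))) := by
      intro h
      rw [← char_sum_eq_prod, ← AddChar.map_add_eq_mul]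
      congr 1
      push_cast
      rw [← Finset.mul_sum]; ring
    rw [Finset.sum_congr rfl (fun h _ => key h),
      AddChar.sum_mulShift _ (ZMod.isPrimitive_stdAddChar D)]
    have hne : ((∑ i, c i * (t i).1 * (t i).2 : ℕ) : ZMod D) - (m : ZMod D) ≠ 0 := by
      rw [sub_ne_zero, Ne, ZMod.natCast_eq_natCast_iff']
      exact hcon t (fun i => Finset.mem_product.1 (ht i))
    rw [if_neg hne, Nat.cast_zero]
  set T' : ZMod D → Finset ℕ := fun h => T.filter (fun p => ¬ p ∣ h.val) with hT'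
  set D' : ZMod D → ℕ := fun h => ∏ p ∈ T' h, p with hD'
  -- facts about a non-zero frequency
  have hfac : ∀ h : ZMod D, h ≠ 0 → (T' h).Nonempty ∧ ∃ g h' : ℕ, g ≠ 0 ∧ D = g * D' h ∧
      h.val = g * h' ∧ h'.Coprime (D' h) ∧ g = ∏ p ∈ T.filter (fun p => p ∣ h.val), p := by
    intro h hh
    set g := ∏ p ∈ T.filter (fun p => p ∣ h.val), p with hg
    have hgD : D = g * D' h := (Finset.prod_filter_mul_prod_filter_not T _ _).symm
    have hgdvd : g ∣ h.val := by
      refine Finset.prod_primes_dvd _ (fun p hp => (hT p (Finset.mem_filter.1 hp).1).prime) ?_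
      intro p hp; exact (Finset.mem_filter.1 hp).2
    have hne : (T' h).Nonempty := by
      rw [Finset.nonempty_iff_ne_empty]; intro he
      have h1 : D' h = 1 := by simp [hD', he]
      rw [h1, mul_one] at hgD
      have : D ∣ h.val := (dvd_of_eq hgD).trans hgdvd
      have h2 := Nat.eq_zero_of_dvd_of_lt this (ZMod.val_lt h)
      exact hh ((ZMod.val_eq_zero h).1 h2)
    refine ⟨hne, g, h.val / g, ?_, hgD, (Nat.mul_div_cancel' hgdvd).symm, ?_, rfl⟩
    · exact Finset.prod_ne_zero_iff.2 fun p hp => (hT p (Finset.mem_filter.1 hp).1).ne_zero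
    · refine Nat.Coprime.prod_right fun p hp => ?_
      rw [hT', Finset.mem_filter] at hp
      refine ((hT p hp.1).coprime_iff_not_dvd.2 ?_).symm
      exact fun hd => hp.2 (hd.trans (Nat.div_dvd_of_dvd hgdvd))
  -- decay of the exponential sums
  have hdecay : ∀ h : ZMod D, h ≠ 0 → ∀ i, ‖S i h‖ ^ 8 * (D' h : ℝ) ^ 2 ≤ Nn ^ 8 := by
    intro h hh i
    obtain ⟨hne, g, h', hg0, hgD, hh', hcop, -⟩ := hfac h hh
    have hD'0 : D' h ≠ 0 :=
      Finset.prod_ne_zero_iff.2 fun p hp => (hT p (Finset.mem_filter.1 hp).1).ne_zero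
    have : NeZero (D' h) := ⟨hD'0⟩
    have hci : (c i).Coprime (D' h) := by
      refine Nat.Coprime.prod_right fun p hp => ?_
      exact ((hT p (Finset.mem_filter.1 hp).1).coprime_iff_not_dvd.2 (hc i p (Finset.mem_filter.1 hp).1)).symm
    have hu : IsUnit ((h' * c i : ℕ) : ZMod (D' h)) :=
      (ZMod.isUnit_iff_coprime _ _).2 (Nat.Coprime.mul_left hcop hci)
    have hSi : S i h = ∑ x ∈ A, ∑ y ∈ B, ZMod.stdAddChar
        ((x : ZMod (D' h)) * (((h' * c i : ℕ) : ZMod (D' h)) * (y : ZMod (D' h)))) := by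
      simp only [hS]
      rw [Finset.sum_product]
      refine Finset.sum_congr rfl fun x _ => Finset.sum_congr rfl fun y _ => ?_
      have e1 : h * ((c i * x * y : ℕ) : ZMod D) = ((g * (h' * (c i * x * y)) : ℕ) : ZMod D) := by
        conv_lhs => rw [← ZMod.natCast_zmod_val h, hh']
        push_cast; ring
      have e2 : ((x : ZMod (D' h)) * (((h' * c i : ℕ) : ZMod (D' h)) * (y : ZMod (D' h))))
          = ((h' * (c i * x * y) : ℕ) : ZMod (D' h)) := by push_cast; ring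
      rw [e1, e2]
      exact stdAddChar_mul_left hgD hg0 _
    have h2 : ‖S i h‖ ^ 2 ≤ (D' h : ℝ) * coll A (D' h) * coll B (D' h) := by
      rw [hSi]; exact bilinear A B _ hu
    have hsub : T' h ⊆ T := Finset.filter_subset _ _
    have hA' : ((coll A (D' h) : ℝ)) ^ 4 * (D' h : ℝ) ^ 3 ≤ (A.card : ℝ) ^ 8 := by
      exact_mod_cast hA _ hsub hne
    have hB' : ((coll B (D' h) : ℝ)) ^ 4 * (D' h : ℝ) ^ 3 ≤ (B.card : ℝ) ^ 8 := by
      exact_mod_cast hB _ hsub hne
    calc ‖S i h‖ ^ 8 * (D' h : ℝ) ^ 2 = (‖S i h‖ ^ 2) ^ 4 * (D' h : ℝ) ^ 2 := by ring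
      _ ≤ ((D' h : ℝ) * coll A (D' h) * coll B (D' h)) ^ 4 * (D' h : ℝ) ^ 2 := by gcongr
      _ = ((coll A (D' h) : ℝ) ^ 4 * (D' h : ℝ) ^ 3) * ((coll B (D' h) : ℝ) ^ 4 * (D' h : ℝ) ^ 3) := by ring
      _ ≤ (A.card : ℝ) ^ 8 * (B.card : ℝ) ^ 8 := by gcongr
      _ = Nn ^ 8 := by rw [hNn]; ring
  have hprod : ∀ h : ZMod D, h ≠ 0 → ∏ i, ‖S i h‖ ≤ Nn ^ k / (D' h : ℝ) ^ 4 := by
    intro h hh
    have hD'pos : (1 : ℝ) ≤ (D' h : ℝ) := by
      exact_mod_cast Finset.one_le_prod' fun p hp => (hT p (Finset.mem_filter.1 hp).1).one_le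
    have h8 : (∏ i, ‖S i h‖) ^ 8 * ((D' h : ℝ) ^ 4) ^ 8 ≤ (Nn ^ k) ^ 8 := by
      calc (∏ i, ‖S i h‖) ^ 8 * ((D' h : ℝ) ^ 4) ^ 8
          ≤ (∏ i, ‖S i h‖) ^ 8 * ((D' h : ℝ) ^ 2) ^ k := by
            gcongr
            rw [← pow_mul, ← pow_mul]
            exact pow_le_pow_right₀ hD'pos (by omega)
        _ = ∏ i, (‖S i h‖ ^ 8 * (D' h : ℝ) ^ 2) := by
            rw [Finset.prod_mul_distrib, Finset.prod_pow, Finset.prod_const, Finset.card_univ, Fintype.card_fin]
        _ ≤ ∏ _i : Fin k, Nn ^ 8 :=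
            Finset.prod_le_prod (fun i _ => by positivity) (fun i _ => hdecay h hh i)
        _ = (Nn ^ k) ^ 8 := by
            rw [Finset.prod_const, Finset.card_univ, Fintype.card_fin, ← pow_mul, ← pow_mul, mul_comm]
    rw [← mul_pow] at h8
    rw [le_div_iff₀ (by positivity)]
    exact (pow_le_pow_iff_left₀ (by positivity) (by positivity) (by norm_num)).1 h8
  have hcount : ∑ h ∈ (Finset.univ : Finset (ZMod D)).erase 0, (1 : ℝ) / (D' h : ℝ) ^ 4 < 1 := by
    set P := T.powerset.filter (fun U => U.Nonempty) with hP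
    have hmaps : ∀ h ∈ (Finset.univ : Finset (ZMod D)).erase 0, T' h ∈ P := by
      intro h hh
      rw [hP, Finset.mem_filter, Finset.mem_powerset]
      exact ⟨Finset.filter_subset _ _, (hfac h (Finset.ne_of_mem_erase hh)).1⟩
    rw [← Finset.sum_fiberwise_of_maps_to hmaps]
    have hfib : ∀ U ∈ P, ∑ h ∈ ((Finset.univ : Finset (ZMod D)).erase 0).filter (fun h => T' h = U),
        (1 : ℝ) / (D' h : ℝ) ^ 4 ≤ 1 / ((∏ p ∈ U, p : ℕ) : ℝ) ^ 3 := by
      intro U hU
      have hUpos : 0 < ∏ p ∈ U, p := by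
        refine Finset.prod_pos fun p hp => ?_
        rw [hP, Finset.mem_filter, Finset.mem_powerset] at hU
        exact (hT p (hU.1 hp)).pos
      set g := ∏ p ∈ T \ U, p with hg
      have hgU : ∀ h : ZMod D, h ≠ 0 → T' h = U → g ∣ h.val ∧ h.val / g < ∏ p ∈ U, p := by
        intro h hh hTU
        obtain ⟨-, g', h', hg', hgD, hh', -, hgdef⟩ := hfac h hh
        have : g' = g := by
          rw [hgdef, hg, ← hTU]
          congr 1
          ext p; simp [hT']; tauto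
        subst this
        refine ⟨⟨h', hh'⟩, ?_⟩
        rw [Nat.div_lt_iff_lt_mul (Nat.pos_of_ne_zero hg'), mul_comm]
        have : D' h = ∏ p ∈ U, p := by rw [hD']; simp only [hTU]
        rw [← this, ← hgD]
        exact ZMod.val_lt h
      have hcard : (((Finset.univ : Finset (ZMod D)).erase 0).filter (fun h => T' h = U)).card
          ≤ ∏ p ∈ U, p := by
        refine (Finset.card_le_card_of_injOn (t := Finset.range (∏ p ∈ U, p)) (fun h => h.val / g) ?_ ?_).trans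
          (Finset.card_range _).le
        · intro h hh
          simp only [Finset.coe_filter, Set.mem_ofPred_eq, Finset.mem_erase] at hh
          simpa using (hgU h hh.1.1 hh.2).2
        · intro h hh h₂ hh₂ he
          simp only [Finset.coe_filter, Set.mem_ofPred_eq, Finset.mem_erase] at hh hh₂
          apply ZMod.val_injective
          have a1 := Nat.div_mul_cancel (hgU h hh.1.1 hh.2).1
          have a2 := Nat.div_mul_cancel (hgU h₂ hh₂.1.1 hh₂.2).1
          simp only at he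
          rw [← a1, ← a2, he]
      calc ∑ h ∈ ((Finset.univ : Finset (ZMod D)).erase 0).filter (fun h => T' h = U), (1 : ℝ) / (D' h : ℝ) ^ 4
          = ∑ _h ∈ ((Finset.univ : Finset (ZMod D)).erase 0).filter (fun h => T' h = U), (1 : ℝ) / ((∏ p ∈ U, p : ℕ) : ℝ) ^ 4 := by
            refine Finset.sum_congr rfl fun h hh => ?_
            simp only [hD', (Finset.mem_filter.1 hh).2]
        _ ≤ ((∏ p ∈ U, p : ℕ) : ℝ) * ((1 : ℝ) / ((∏ p ∈ U, p : ℕ) : ℝ) ^ 4) := by
            rw [Finset.sum_const, nsmul_eq_mul]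
            gcongr
        _ = _ := by
            have : ((∏ p ∈ U, p : ℕ) : ℝ) ≠ 0 := by exact_mod_cast hUpos.ne'
            field_simp
    refine (Finset.sum_le_sum hfib).trans_lt ?_
    rw [← Finset.sum_image (f := fun n : ℕ => (1 : ℝ) / (n : ℝ) ^ 3) (g := fun U : Finset ℕ => ∏ p ∈ U, p)]
    · refine sum_inv_cube_lt_one _ fun n hn => ?_
      obtain ⟨U, hU, rfl⟩ := Finset.mem_image.1 hn
      rw [hP, Finset.mem_filter, Finset.mem_powerset] at hU
      obtain ⟨p, hp⟩ := hU.2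
      exact (hT p (hU.1 hp)).two_le.trans (Nat.le_of_dvd
        (Finset.prod_pos fun q hq => (hT q (hU.1 hq)).pos) (Finset.dvd_prod_of_mem _ hp))
    · intro U hU V hV he
      simp only [hP, Finset.coe_filter, Set.mem_ofPred_eq, Finset.mem_powerset] at hU hV
      rw [← prod_primes_eq_primeFactors (fun p hp => hT p (hU.1 hp)),
        ← prod_primes_eq_primeFactors (fun p hp => hT p (hV.1 hp))]
      exact congrArg Nat.primeFactors he
  rw [← Finset.add_sum_erase _ _ (Finset.mem_univ (0 : ZMod D))] at hzero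
  have hmain : ZMod.stdAddChar (-((0 : ZMod D) * (m : ZMod D))) * ∏ i, S i 0 = ((Nn ^ k : ℝ) : ℂ) := by
    simp [hS, hNn]
  rw [hmain] at hzero
  have hle : Nn ^ k ≤ ∑ h ∈ (Finset.univ : Finset (ZMod D)).erase 0, ∏ i, ‖S i h‖ := by
    have h1 : ‖((Nn ^ k : ℝ) : ℂ)‖ = Nn ^ k := by
      rw [Complex.norm_real, Real.norm_of_nonneg (by positivity)]
    rw [eq_neg_of_add_eq_zero_left hzero, norm_neg] at h1
    rw [← h1]
    refine (norm_sum_le _ _).trans_eq (Finset.sum_congr rfl fun h _ => ?_)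
    rw [norm_mul, AddChar.norm_apply, one_mul, norm_prod]
  have hlt : ∑ h ∈ (Finset.univ : Finset (ZMod D)).erase 0, ∏ i, ‖S i h‖ < Nn ^ k := by
    refine (Finset.sum_le_sum (fun h hh => hprod h (Finset.ne_of_mem_erase hh))).trans_lt ?_
    have : ∀ h : ZMod D, Nn ^ k / (D' h : ℝ) ^ 4 = Nn ^ k * (1 / (D' h : ℝ) ^ 4) := fun h => by ring
    simp only [this, ← Finset.mul_sum]
    exact mul_lt_of_lt_one_right (by positivity) hcount
  exact absurd hle (not_le.2 hlt)

end Vale.Agent.P012
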