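import Vale.Agent.P012.Fourier
import Mathlib.Data.Finset.Powerset
import Mathlib.NumberTheory.PrimeCounting

namespace Vale.Agent.P012

open Finset

/-- Number of ordered pairs of distinct elements of `A` that are congruent modulo `D`. -/
def collOff (A : Finset ℕ) (D : ℕ) : ℕ :=
  (A.offDiag.filter (fun q => q.1 % D = q.2 % D)).card

lemma coll_le (A : Finset ℕ) (D : ℕ) : coll A D ≤ A.card + collOff A D := by
  classical
  rw [coll, collOff, ← Finset.diag_union_offDiag, Finset.filter_union]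
  refine (Finset.card_union_le _ _).trans (Nat.add_le_add_right ?_ _)
  exact (Finset.card_filter_le _ _).trans (Finset.diag_card A).le

lemma collOff_one (A : Finset ℕ) : collOff A 1 = A.card * A.card - A.card := by
  rw [collOff, Finset.filter_true_of_mem (fun q _ => by simp [Nat.mod_one]), Finset.offDiag_card]

lemma modEq_count_le (U : Finset ℕ) (hU : ∀ p ∈ U, p.Prime) {a b W : ℕ} (hab : a ≠ b)
    (ha : a < 2 ^ W) (hb : b < 2 ^ W) : (U.filter (fun p => a % p = b % p)).card ≤ W := by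
  wlog hle : a ≤ b generalizing a b
  · have := this (Ne.symm hab) hb ha (le_of_not_ge hle)
    simpa [eq_comm] using this
  set s := U.filter (fun p => a % p = b % p) with hs
  have hdvd : ∏ p ∈ s, p ∣ b - a := by
    refine Finset.prod_primes_dvd _ (fun p hp => (hU p (Finset.mem_filter.1 hp).1).prime) ?_
    intro p hp
    exact (Nat.modEq_iff_dvd' hle).1 (Finset.mem_filter.1 hp).2
  have h1 : 2 ^ s.card ≤ ∏ p ∈ s, p := by
    rw [← Finset.prod_const]
    exact Finset.prod_le_prod' fun p hp => (hU p (Finset.mem_filter.1 hp).1).two_le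
  have h2 : ∏ p ∈ s, p ≤ b - a := Nat.le_of_dvd (by omega) hdvd
  have h3 : 2 ^ s.card < 2 ^ W := by omega
  exact ((Nat.pow_lt_pow_iff_right (by norm_num)).1 h3).le

lemma sum_collOff_mul_le (A U : Finset ℕ) (hU : ∀ p ∈ U, p.Prime) {W : ℕ}
    (hA : ∀ a ∈ A, a < 2 ^ W) (D : ℕ) :
    ∑ p ∈ U, collOff A (D * p) ≤ W * collOff A D := by
  classical
  calc ∑ p ∈ U, collOff A (D * p)
      ≤ ∑ p ∈ U, ((A.offDiag.filter (fun q => q.1 % D = q.2 % D)).filter
          (fun q => q.1 % p = q.2 % p)).card := by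
        refine Finset.sum_le_sum fun p _ => Finset.card_le_card fun q hq => ?_
        simp only [Finset.mem_filter] at hq ⊢
        exact ⟨⟨hq.1, Nat.ModEq.of_dvd (Dvd.intro p rfl) hq.2⟩,
          Nat.ModEq.of_dvd (Dvd.intro_left D rfl) hq.2⟩
    _ = ∑ q ∈ A.offDiag.filter (fun q => q.1 % D = q.2 % D),
          (U.filter (fun p => q.1 % p = q.2 % p)).card := by
        simp only [Finset.card_filter]; exact Finset.sum_comm
    _ ≤ (A.offDiag.filter (fun q => q.1 % D = q.2 % D)).card • W := by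
        refine Finset.sum_le_card_nsmul _ _ _ fun q hq => ?_
        have := Finset.mem_offDiag.1 (Finset.mem_filter.1 hq).1
        exact modEq_count_le U hU this.2.2 (hA _ this.1) (hA _ this.2.1)
    _ = W * collOff A D := by rw [smul_eq_mul, collOff, mul_comm]

/-- Weighted potential controlling collisions modulo all subproducts of `T`. -/
def pot (G : ℕ) (A B T : Finset ℕ) : ℕ :=
  ∑ U ∈ T.powerset, G ^ U.card * (collOff A (∏ p ∈ U, p) + collOff B (∏ p ∈ U, p))

lemma pot_insert {G : ℕ} {A B T : Finset ℕ} {p : ℕ} (hp : p ∉ T) :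
    pot G A B (insert p T) = pot G A B T + ∑ U ∈ T.powerset,
      G ^ (U.card + 1) * (collOff A ((∏ q ∈ U, q) * p) + collOff B ((∏ q ∈ U, q) * p)) := by
  classical
  rw [pot, Finset.sum_powerset_insert hp]
  congr 1
  refine Finset.sum_congr rfl fun U hU => ?_
  have hpU : p ∉ U := fun h => hp (Finset.mem_powerset.1 hU h)
  rw [Finset.card_insert_of_notMem hpU, Finset.prod_insert hpU, mul_comm p]

lemma exists_insert (G : ℕ) (A B T U : Finset ℕ) {W K : ℕ} (hU : ∀ p ∈ U, p.Prime)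
    (hA : ∀ a ∈ A, a < 2 ^ W) (hB : ∀ a ∈ B, a < 2 ^ W) (hTU : Disjoint T U)
    (hK : K ≤ U.card) (hne : U.Nonempty) :
    ∃ p ∈ U, K * pot G A B (insert p T) ≤ (K + G * W) * pot G A B T := by
  classical
  set P := pot G A B T with hP
  have hsum : ∑ p ∈ U, pot G A B (insert p T) ≤ U.card * P + G * W * P := by
    rw [Finset.sum_congr rfl (fun p hp => pot_insert (Finset.disjoint_right.1 hTU hp)),
      Finset.sum_add_distrib, Finset.sum_const, smul_eq_mul, Finset.sum_comm]
    refine Nat.add_le_add_left ?_ _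
    rw [hP, pot, Finset.mul_sum]
    refine Finset.sum_le_sum fun V _ => ?_
    rw [← Finset.mul_sum, Finset.sum_add_distrib]
    calc G ^ (V.card + 1) * (∑ p ∈ U, collOff A ((∏ q ∈ V, q) * p) + ∑ p ∈ U, collOff B ((∏ q ∈ V, q) * p))
        ≤ G ^ (V.card + 1) * (W * collOff A (∏ q ∈ V, q) + W * collOff B (∏ q ∈ V, q)) := by
          gcongr <;> [exact sum_collOff_mul_le A U hU hA _; exact sum_collOff_mul_le B U hU hB _]
      _ = _ := by ring
  obtain ⟨p, hp, hmin⟩ := Finset.exists_min_image U (fun p => pot G A B (insert p T)) hne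
  refine ⟨p, hp, ?_⟩
  have h1 : U.card * pot G A B (insert p T) ≤ U.card * P + G * W * P := by
    refine le_trans ?_ hsum
    rw [← smul_eq_mul]
    exact Finset.card_nsmul_le_sum _ _ _ hmin
  obtain ⟨d, hd⟩ := Nat.exists_eq_add_of_le hK
  rw [hd] at h1
  rcases le_total (pot G A B (insert p T)) P with h | h
  · calc K * pot G A B (insert p T) ≤ K * P := Nat.mul_le_mul_left _ h
      _ ≤ (K + G * W) * P := Nat.mul_le_mul_right _ (Nat.le_add_right _ _)
  · have : d * P ≤ d * pot G A B (insert p T) := Nat.mul_le_mul_left _ h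
    nlinarith

lemma exists_greedy (G : ℕ) (A B U : Finset ℕ) {W K : ℕ} (hU : ∀ p ∈ U, p.Prime)
    (hA : ∀ a ∈ A, a < 2 ^ W) (hB : ∀ a ∈ B, a < 2 ^ W) :
    ∀ i, K + i ≤ U.card + 1 → 0 < K →
      ∃ T ⊆ U, T.card = i ∧ K ^ i * pot G A B T ≤ (K + G * W) ^ i * pot G A B ∅ := by
  classical
  intro i
  induction i with
  | zero => intro _ _; exact ⟨∅, by simp, by simp, le_refl _⟩
  | succ i ih =>
    intro hi hK
    obtain ⟨T, hTU, hTc, hT⟩ := ih (by omega) hK
    have hc : K ≤ (U \ T).card := by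
      rw [Finset.card_sdiff_of_subset hTU, hTc]; omega
    obtain ⟨p, hp, hstep⟩ := exists_insert G A B T (U \ T) (K := K)
      (fun q hq => hU q (Finset.mem_sdiff.1 hq).1) hA hB Finset.disjoint_sdiff hc
      (Finset.card_pos.1 (by omega))
    rw [Finset.mem_sdiff] at hp
    refine ⟨insert p T, Finset.insert_subset hp.1 hTU, by rw [Finset.card_insert_of_notMem hp.2, hTc], ?_⟩
    calc K ^ (i + 1) * pot G A B (insert p T) = K ^ i * (K * pot G A B (insert p T)) := by ring
      _ ≤ K ^ i * ((K + G * W) * pot G A B T) := Nat.mul_le_mul_left _ hstep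
      _ = (K + G * W) * (K ^ i * pot G A B T) := by ring
      _ ≤ (K + G * W) * ((K + G * W) ^ i * pot G A B ∅) := Nat.mul_le_mul_left _ hT
      _ = _ := by ring

lemma pow_bound (K g : ℕ) : ∀ i, (K + g) ^ i * K ≤ K ^ (i + 1) + i * g * (K + g) ^ i := by
  intro i
  induction i with
  | zero => simp
  | succ i ih =>
    have h1 : g * K ^ (i + 1) ≤ g * (K + g) ^ (i + 1) :=
      Nat.mul_le_mul_left _ (Nat.pow_le_pow_left (by omega) _)
    calc (K + g) ^ (i + 1) * K = (K + g) * ((K + g) ^ i * K) := by ring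
      _ ≤ (K + g) * (K ^ (i + 1) + i * g * (K + g) ^ i) := Nat.mul_le_mul_left _ ih
      _ = K ^ (i + 1 + 1) + g * K ^ (i + 1) + i * g * (K + g) ^ (i + 1) := by ring
      _ ≤ _ := by rw [Nat.succ_mul, Nat.add_mul]; omega

/-- Selection of a set of `s` primes modulo whose subproducts `A` and `B` have few collisions. -/
theorem exists_primes (A B U : Finset ℕ) (e W s a : ℕ) (hU : ∀ p ∈ U, p.Prime ∧ p ≤ 2 ^ (4 * e))
    (hA : ∀ x ∈ A, x < 2 ^ W) (hB : ∀ x ∈ B, x < 2 ^ W) (hAc : A.card = a) (hBc : B.card = a)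
    (hs : 2 * 2 ^ (3 * e * s) ≤ a) {K : ℕ} (hK0 : 0 < K) (hK : 16 * s * (2 ^ (3 * e) * W) ≤ K)
    (hKU : K + s ≤ U.card + 1) :
    ∃ T ⊆ U, T.card = s ∧
      (∀ T' ⊆ T, T'.Nonempty → coll A (∏ p ∈ T', p) ^ 4 * (∏ p ∈ T', p) ^ 3 ≤ A.card ^ 8) ∧
      (∀ T' ⊆ T, T'.Nonempty → coll B (∏ p ∈ T', p) ^ 4 * (∏ p ∈ T', p) ^ 3 ≤ B.card ^ 8) := by
  classical
  set G := 2 ^ (3 * e) with hG
  obtain ⟨T, hTU, hTc, hT⟩ := exists_greedy G A B U (K := K) (fun p hp => (hU p hp).1) hA hB s hKU hK0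
  have h0 : pot G A B ∅ = 2 * (a * a - a) := by
    simp [pot, collOff_one, hAc, hBc]; ring
  set P := pot G A B T with hP
  set P0 := pot G A B ∅ with hP0
  have h15 : 15 * P ≤ 16 * P0 := by
    have hb := pow_bound K (G * W) s
    have h1 : 15 * ((K + G * W) ^ s) * K ≤ 16 * K ^ (s + 1) := by
      have : 16 * (s * (G * W)) * (K + G * W) ^ s ≤ K * (K + G * W) ^ s :=
        Nat.mul_le_mul_right _ (by rw [← mul_assoc]; exact hK)
      nlinarith
    have h2 : K ^ (s + 1) * (15 * P) ≤ K ^ (s + 1) * (16 * P0) := by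
      calc K ^ (s + 1) * (15 * P) = 15 * K * (K ^ s * P) := by ring
        _ ≤ 15 * K * ((K + G * W) ^ s * P0) := Nat.mul_le_mul_left _ hT
        _ = (15 * ((K + G * W) ^ s) * K) * P0 := by ring
        _ ≤ (16 * K ^ (s + 1)) * P0 := Nat.mul_le_mul_right _ h1
        _ = _ := by ring
    exact Nat.le_of_mul_le_mul_left h2 (by positivity)
  have key : ∀ T' ⊆ T, T'.Nonempty → ∀ C ∈ ({A, B} : Finset (Finset ℕ)),
      coll C (∏ p ∈ T', p) ^ 4 * (∏ p ∈ T', p) ^ 3 ≤ a ^ 8 := by
    intro T' hT' hne C hC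
    have hrest : G ^ T'.card * collOff C (∏ p ∈ T', p) + P0 ≤ P := by
      have hmem : T' ∈ T.powerset.erase ∅ :=
        Finset.mem_erase.2 ⟨hne.ne_empty, Finset.mem_powerset.2 hT'⟩
      rw [hP, pot, ← Finset.add_sum_erase _ _ (Finset.empty_mem_powerset T), add_comm]
      refine Nat.add_le_add (by simp [hP0, pot]) ?_
      refine le_trans ?_ (Finset.single_le_sum (fun _ _ => Nat.zero_le _) hmem)
      rw [Finset.mem_insert, Finset.mem_singleton] at hC
      rcases hC with rfl | rfl <;> refine Nat.mul_le_mul_left _ ?_ <;> omega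
    have hCc : C.card = a := by
      rw [Finset.mem_insert, Finset.mem_singleton] at hC
      rcases hC with rfl | rfl <;> assumption
    have hGr : 2 * G ^ T'.card ≤ a := by
      refine le_trans (Nat.mul_le_mul_left _ ?_) hs
      rw [hG, ← pow_mul]
      exact Nat.pow_le_pow_right (by norm_num)
        (Nat.mul_le_mul_left _ (hTc ▸ Finset.card_le_card hT'))
    have hcG : coll C (∏ p ∈ T', p) * G ^ T'.card ≤ a ^ 2 := by
      have h1 := Nat.mul_le_mul_right (G ^ T'.card) (coll_le C (∏ p ∈ T', p))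
      rw [hCc] at h1
      have h2 : a * (2 * G ^ T'.card) ≤ a * a := Nat.mul_le_mul_left _ hGr
      have h3 : P0 ≤ 2 * (a * a) := by rw [h0]; omega
      nlinarith
    have hD : (∏ p ∈ T', p) ^ 3 ≤ (G ^ T'.card) ^ 4 := by
      calc (∏ p ∈ T', p) ^ 3 ≤ ((2 ^ (4 * e)) ^ T'.card) ^ 3 := by
            refine Nat.pow_le_pow_left ?_ 3
            exact Finset.prod_le_pow_card _ _ _ fun p hp => (hU p (hTU (hT' hp))).2
        _ = _ := by rw [hG, ← pow_mul, ← pow_mul, ← pow_mul, ← pow_mul]; congr 1; ring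
    calc coll C (∏ p ∈ T', p) ^ 4 * (∏ p ∈ T', p) ^ 3
        ≤ coll C (∏ p ∈ T', p) ^ 4 * (G ^ T'.card) ^ 4 := Nat.mul_le_mul_left _ hD
      _ = (coll C (∏ p ∈ T', p) * G ^ T'.card) ^ 4 := (mul_pow _ _ _).symm
      _ ≤ (a ^ 2) ^ 4 := Nat.pow_le_pow_left hcG 4
      _ = a ^ 8 := by ring
  exact ⟨T, hTU, hTc, fun T' h hne => hAc ▸ key T' h hne A (by simp),
    fun T' h hne => hBc ▸ key T' h hne B (by simp)⟩

end Vale.Agent.P012
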